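import Mathlib
import Vale.Agent.P260.H145.MainV0
import Vale.Agent.P260.H145.PDZ

/-!
# P260: closed aspherical 4-manifolds with amenable fundamental group

The fundamental group `G` of a closed aspherical 4-manifold is a Poincare duality group of
dimension 4 and of type FF.  If such a group is amenable, then its maximal residually finite
quotient is virtually solvable; in particular `G` is virtually solvable if it is residually finite.
-/

namespace Vale.Agent.Results.P260.AmenablePD4

open Vale.Agent.P260 Vale.Agent.P260.H145

/-- Let `G` be an amenable Poincare duality group of dimension 4 and type FF.  The quotient of `G`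
by the intersection of its finite-index normal subgroups is virtually solvable; if `G` is
residually finite, then `G` is virtually solvable. -/
theorem result (G : Type) [Group G] (P : PD4Z G) (hG : Folner G) :
    VSolv (G ⧸ finRes G) ∧ (ResFin G → VSolv G) :=
  ⟨vsolv_quot G (fun p _ => ⟨P.modp p⟩) hG, vsolv_of_resFin G (fun p _ => ⟨P.modp p⟩) hG⟩

end Vale.Agent.Results.P260.AmenablePD4
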